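import Vale.Agent.P264F72.Cal
import Mathlib.RingTheory.Norm.Transitivity
import Mathlib.RingTheory.Complex
import Mathlib.Analysis.Matrix.Order

/-! P264: the top power of a positive `(1,1)`-form is a constant multiple of the determinant. -/

open scoped ComplexOrder MatrixOrder
open Complex Equiv

noncomputable section

namespace Vale.Agent.P264F

open Vale.Agent.P272.K (Cm)

variable {n : ℕ}

theorem prod_update (α : Two n) [DecidableEq (Fin n × Fin 2)] (m : Fin n × Fin 2 → Cm n)
    (p : Fin n × Fin 2) :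
    ∃ (c : ℝ) (L : Cm n →ₗ[ℝ] ℝ), ∀ x : Cm n,
      ∏ i, α ![Function.update m p x (i, 0), Function.update m p x (i, 1)] = L x * c := by
  obtain ⟨j, a⟩ := p
  have key : ∀ x : Cm n, ∏ i ∈ Finset.univ.erase j,
      α ![Function.update m (j, a) x (i, 0), Function.update m (j, a) x (i, 1)] =
      ∏ i ∈ Finset.univ.erase j, α ![m (i, 0), m (i, 1)] := by
    intro x
    refine Finset.prod_congr rfl fun i hi => ?_
    have h := (Finset.mem_erase.1 hi).1
    rw [Function.update_of_ne (fun e => h (congrArg Prod.fst e)),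
      Function.update_of_ne (fun e => h (congrArg Prod.fst e))]
  have h01 : ((j, 0) : Fin n × Fin 2) ≠ (j, 1) := by simp
  refine ⟨∏ i ∈ Finset.univ.erase j, α ![m (i, 0), m (i, 1)], ?_⟩
  fin_cases a
  · refine ⟨⟨⟨fun x => α ![x, m (j, 1)], fun x y => two_add α x y _⟩,
      fun c x => two_smul α c x _⟩, fun x => ?_⟩
    rw [← Finset.mul_prod_erase _ _ (Finset.mem_univ j), key]
    simp only [Fin.zero_eta, Function.update_self, Function.update_of_ne h01.symm]
    rfl
  · refine ⟨⟨⟨fun x => α ![m (j, 0), x], fun x y => two_add' α _ x y⟩,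
      fun c x => two_smul' α c _ x⟩, fun x => ?_⟩
    rw [← Finset.mul_prod_erase _ _ (Finset.mem_univ j), key]
    simp only [Fin.mk_one, Function.update_self, Function.update_of_ne h01]
    rfl

/-- the product of the values on the pairs -/
def ml (α : Two n) : MultilinearMap ℝ (fun _ : Fin n × Fin 2 => Cm n) ℝ where
  toFun m := ∏ i, α ![m (i, 0), m (i, 1)]
  map_update_add' m p x y := by
    obtain ⟨c, L, h⟩ := prod_update α m p
    rw [h, h, h, map_add, add_mul]
  map_update_smul' m p r x := by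
    obtain ⟨c, L, h⟩ := prod_update α m p
    rw [h, h, map_smul, smul_eq_mul, smul_eq_mul, mul_assoc]

theorem alt_apply (α : Two n) (v : Fin n × Fin 2 → Cm n) :
    MultilinearMap.alternatization (ml α) v = ∑ σ : Perm (Fin n × Fin 2),
      ((Perm.sign σ : ℤ) : ℝ) * ∏ i, α ![v (σ (i, 0)), v (σ (i, 1))] := by
  rw [MultilinearMap.alternatization_apply]
  refine Finset.sum_congr rfl fun σ _ => ?_
  rw [Units.smul_def, zsmul_eq_mul]
  rfl

theorem top_comp (α : Two n) (T : Cm n →L[ℝ] Cm n) :
    top (α.compContinuousLinearMap T) = LinearMap.det (T : Cm n →ₗ[ℝ] Cm n) * top α := by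
  have h1 := congrArg (fun f => f ((T : Cm n →ₗ[ℝ] Cm n) ∘ bb n))
    ((MultilinearMap.alternatization (ml α)).eq_smul_basis_det (bb n))
  rw [AlternatingMap.smul_apply, Module.Basis.det_comp, Module.Basis.det_self] at h1
  simp only [alt_apply, Function.comp_apply, bb_apply, smul_eq_mul,
    ContinuousLinearMap.coe_coe] at h1
  unfold top
  simp only [comp_apply]
  rw [h1]
  ring

theorem frm_one (p q : Fin n × Fin 2) : frm 1 ![bas p, bas q] =
    if p.1 = q.1 then 2 * (((q.2 : ℕ) : ℝ) - (p.2 : ℕ)) else 0 := by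
  obtain ⟨i, a⟩ := p
  obtain ⟨j, b⟩ := q
  rw [frm_apply]
  simp only [Matrix.one_apply, ite_mul, one_mul, zero_mul, Finset.sum_ite_eq, Finset.mem_univ,
    if_true, bas]
  by_cases h : i = j
  · subst h
    rw [Finset.sum_eq_single i (fun k _ hk => by simp [hk]) (by simp),
      Finset.sum_eq_single i (fun k _ hk => by simp [hk]) (by simp)]
    fin_cases a <;> fin_cases b <;> simp <;> norm_num
  · rw [if_neg h, Finset.sum_eq_zero, Finset.sum_eq_zero]
    · simp
    · intro k _
      by_cases hk : k = i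
      · subst hk; simp [h]
      · simp [hk]
    · intro k _
      by_cases hk : k = i
      · subst hk; simp [h]
      · simp [hk]

theorem term_nonneg (σ : Perm (Fin n × Fin 2)) :
    0 ≤ ((Perm.sign σ : ℤ) : ℝ) * ∏ i, frm 1 ![bas (σ (i, 0)), bas (σ (i, 1))] := by
  by_cases h0 : ∃ i, frm 1 ![bas (σ (i, 0)), bas (σ (i, 1))] = 0
  · obtain ⟨i, hi⟩ := h0
    rw [Finset.prod_eq_zero (Finset.mem_univ i) hi, mul_zero]
  rw [not_exists] at h0
  simp only [frm_one] at h0 ⊢
  have h1 : ∀ i, (σ (i, 0)).1 = (σ (i, 1)).1 := fun i => by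
    by_contra h; exact h0 i (if_neg h)
  have h2 : ∀ i, (σ (i, 0)).2 ≠ (σ (i, 1)).2 := fun i h => h0 i (by rw [h]; simp)
  let τ : Fin n → Perm (Fin 2) := fun i => if (σ (i, 0)).2 = 0 then 1 else swap 0 1
  have h3 : ∀ i a, σ (i, a) = ((σ (i, 0)).1, τ i a) := by
    intro i a
    have := h2 i
    have key : ∀ x y : Fin 2, x ≠ y → x = (if x = 0 then (1 : Perm (Fin 2)) else swap 0 1) 0 ∧
        y = (if x = 0 then (1 : Perm (Fin 2)) else swap 0 1) 1 := by decide
    fin_cases a
    · exact Prod.ext rfl (key _ _ this).1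
    · exact Prod.ext (h1 i).symm (key _ _ this).2
  have h4 : Function.Injective fun i => (σ (i, 0)).1 := by
    intro i j h
    have e : σ (i, 0) = σ (j, (τ j).symm (τ i 0)) := by
      rw [h3 j, h3 i 0, apply_symm_apply]
      exact Prod.ext h rfl
    exact congrArg Prod.fst (σ.injective e)
  let π : Perm (Fin n) := Equiv.ofBijective _ (Finite.injective_iff_bijective.1 h4)
  have h5 : σ = (prodCongrLeft fun _ : Fin 2 => π) * prodCongrRight τ := by
    ext1 ⟨i, a⟩
    exact h3 i a
  have h6 : Perm.sign σ = ∏ i, Perm.sign (τ i) := by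
    rw [h5, Perm.sign_mul, Perm.sign_prodCongrLeft, Perm.sign_prodCongrRight, Fin.prod_univ_two,
      Int.units_mul_self, one_mul]
  rw [h6, Units.coe_prod, Int.cast_prod, ← Finset.prod_mul_distrib]
  refine Finset.prod_nonneg fun i _ => ?_
  rw [if_pos (h1 i)]
  have key : ∀ x y : Fin 2, x ≠ y →
      0 ≤ ((Perm.sign (if x = 0 then (1 : Perm (Fin 2)) else swap 0 1) : ℤ) : ℝ) *
        (2 * (((y : ℕ) : ℝ) - (x : ℕ))) := by
    intro x y h
    fin_cases x <;> fin_cases y <;> simp at h ⊢
  exact key _ _ (h2 i)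

theorem top_one_pos : 0 < top (frm (1 : Matrix (Fin n) (Fin n) ℂ)) := by
  unfold top
  refine div_pos (Finset.sum_pos' (fun σ _ => term_nonneg σ) ⟨1, Finset.mem_univ _, ?_⟩)
    (by positivity)
  simp [frm_one]

theorem top_eq (n : ℕ) : ∃ c : ℝ, 0 < c ∧
    ∀ α : Two n, Inv α → (mat α).PosDef → top α = c * (mat α).det.re := by
  refine ⟨_, top_one_pos (n := n), fun α hα hp => ?_⟩
  obtain ⟨B, hB⟩ := CStarAlgebra.nonneg_iff_eq_star_mul_self.mp hp.posSemidef.nonneg
  let A : Matrix (Fin n) (Fin n) ℂ := B.map (starRingEnd ℂ)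
  let T : Cm n →L[ℝ] Cm n := LinearMap.toContinuousLinearMap ((Matrix.toLin' A).restrictScalars ℝ)
  have hT : ∀ v, T (I • v) = I • T v := fun v => (Matrix.toLin' A).map_smul I v
  have hA : ∀ p i, A p i = T (Pi.single i 1) p := fun p i => by simp [T]
  have h1 : α = (frm 1).compContinuousLinearMap T := by
    refine hα.ext ((inv_frm 1).comp hT) ?_
    rw [(inv_frm 1).mat_comp hT hA, mat_frm Matrix.isHermitian_one, mul_one, hB]
    congr 1
    ext i j
    simp [A]
  have h2 : LinearMap.det (T : Cm n →ₗ[ℝ] Cm n) = normSq B.det := by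
    have e : (T : Cm n →ₗ[ℝ] Cm n) = (Matrix.toLin' A).restrictScalars ℝ := rfl
    rw [e, LinearMap.det_restrictScalars, LinearMap.det_toLin', Algebra.norm_complex_apply,
      show A.det = starRingEnd ℂ B.det from ((starRingEnd ℂ).map_det B).symm, normSq_conj]
  rw [hB, Matrix.det_mul, Matrix.star_eq_conjTranspose, Matrix.det_conjTranspose]
  conv_lhs => rw [h1, top_comp, h2]
  rw [mul_comm]
  congr 1
  rw [show star B.det = starRingEnd ℂ B.det from rfl, ← normSq_eq_conj_mul_self, ofReal_re]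

end Vale.Agent.P264F

end
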